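import Vale.Agent.P154.D5.K0.Charts

set_option maxRecDepth 100000

namespace Vale.Agent.P154.D5.K0

open Cert InT OutT

/-- Certificate tree. -/
def tr00_r10110 : OutT :=
(A (B (A (B (A (O (c (c (c l l) (c l l)) (c (c l (c l l)) (d (c k k) (c (d l l) (d (c k k) (d (c l (c k k)) (c l l)))))))) (B (O (c (c (c l l) (c l l)) (c (c l (d l l)) (d (c k k) (c (d l l) (d (c k k) (d (c l (c k k)) (d l l)))))))) (O (c (c (c l l) (c l l)) (c (c l (c l l)) (d (c k k) (c (d l l) (d (c k k) (d (c l (c k k)) (c l l)))))))))) (A (O (c (c (c l l) (c l l)) (c (c l l) (d (c k k) (c (c l l) (d (c k k) (d (c l (d k (d l l))) (c l l)))))))) (B (O (c (c (c l l) (c l l)) (c (c l (c l l)) (d (c k k) (c (c l l) (d (c k k) (d (c l (c k k)) l))))))) (O (c (c (c l l) (c l l)) (c (c l l) (d (c k k) (c l (d (c k k) (d (c l (d k l)) l)))))))))) (B (A (B (A (O (c (c l (c l l)) (c (c l (d l l)) (d (c k k) (c (d l l) (d (c k k) (d (c l (d k l)) l))))))) s) (A (O (c (c l (c l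 l)) (c (c l (d l l)) (d (c k k) (c (d l l) (d (c k k) (d (c l (d k l)) l))))))) (O (c (c l (c l l)) (c (c l (d l l)) (d (c k k) (c (d l l) (d (c k k) (d (c l (d k l)) l))))))))) (B s (A s s))) (A (B (O (c (c (c l l) (c l l)) (c (c l (d l l)) (d (c k k) (c (d l l) (d (c k k) (c (d l l) (d (c k k) (d (c l (d k (d l l))) l))))))))) (O (c (c (c l l) (c l l)) (c (c l (c l l)) (d (c k k) (c (d l l) (d (c k k) (c l (d (c k k) (d (d (c l k) l) l)))))))))) (B (A (O (c (c l (c l l)) (c (c l (d l l)) (d (c k k) (c (d l l) (d (c k k) (d (c l (d k l)) l))))))) s) (A (O (c (c (c l l) (c l l)) (c (c l (c l l)) (d (c k k) (c (c l l) (d (c k k) (d (c l (d k l)) l))))))) (O (c (c l (c l l)) (c (c l (c l l)) (d (c k k) (c (d l l) (d (c k k) (d (c l (d k l)) l)))))))))))) (A (B (A (O (c (c (c l l) (c l l)) (c (c l l) (d (c k k) (c l (d (c k k) (d (d (c l k) l) l))))))) (B (O (c (c (c l l) (c l l)) (c (c l l) (d (c k k) (c l (d (c k k) (d (d (c l k) l) l)))))))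 (O (c (c (c l l) (c l l)) (c (c l l) (d (c k k) (c l (d (c k k) (d (d (c l k) l) l))))))))) (A (O (c (c (c l l) (c l l)) (c (c l l) (d (c k k) (c l (d (c k k) (d (d (c l k) l) l))))))) (B (O (c (c (c l l) (c l l)) (c (c l l) (d (c k k) (c l (d (c k k) (d (d (c l k) l) l))))))) (O (c (c (c l l) (c l l)) (c (c l l) (d (c k k) (c l (d (c k k) (d (c l l) l)))))))))) (B (A (B (O (c (c (c l l) (c l l)) (c (c l l) (d (c k k) (c (c l l) (d (c k k) (c l (d (c k k) (d (d (d (c k k) l) l) l))))))))) (O (c (c (c l l) (c l l)) (c (c l l) (d (c k k) (c l (d (c k k) (d (c l (c k k)) (d (c l l) l))))))))) (B (A (O (c (c (c l l) (c l l)) (c (c l l) (d (c k k) (c l (d (c k k) (d (c l (d k l)) l))))))) (O (c (c l (c l l)) (c (c l l) (d (c k k) (c l (d (c k k) (d (d (c l k) l) l)))))))) (A (O (c (c (c l l) (c l l)) (c (c l l) (d (c k k) (c l (d (c k k) (d l l))))))) (O (c (c (c l l) (c l l)) (c (c l l) (d (c k k) (c l (d (c k k) (d (d (c l k) l) l)))))))))) (A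 (B (O (c (c (c l l) (c l l)) (c (c l l) (d (c k k) (c l (d (c k k) (d (c l (c k k)) (d l l)))))))) (O (c (c (c l l) (c l l)) (c (c l l) (d (c k k) (c l (d (c k k) (d (c l (d k (d (d l l) l))) (c l l))))))))) (B (A (O (c (c (c l l) (c l l)) (c (c l l) (d (c k k) (c l (d (c k k) l)))))) (O (c (c (c l l) (c l l)) (c (c l l) (d (c k k) (c l (d (c k k) (d l l)))))))) (A (O (c (c (c l l) (c l l)) (c (c l l) (d (c k k) (d (c l (d k (d (c k k) l))) (c l l)))))) (O (c (c (c l l) (c l l)) (c (c l l) (d (c k k) (c l (d (c k k) l)))))))))))) (B (A (B s (A (B s (A (O (c (c l (c l l)) (c (c l (d l l)) (d (c k k) (c (d l l) (d (c k k) (d (c l (c k k)) l))))))) s)) s)) s) (A (B (A (B (A (O (c (c l (c l l)) (c (c l (c l l)) (d (c k k) (c (c l l) (d (c k k) (d (c l (d k (d l l))) l))))))) (O (c (c l (c l l)) (c (c l (c l l)) (d (c k k) (c (d l l) (d (c k k) (d (c l (c k k)) (c l l))))))))) (A (O (c (c l (c l l)) (c (c l l) (d (c k k) (c l (d (c k k) (d (d (c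 l k) l) l))))))) (O (c (c l (c l l)) (c (c l l) (d (c k k) (c l (d (c k k) (d (c l (d k (d (c k k) l))) l))))))))) (B (A s s) (A (O (c (c l (c l l)) (c (c l (c l l)) (d (c k k) (c (d l l) (d (c k k) (d (c l (c k k)) (c l l)))))))) s))) (A (B (A (O (c (c l (c l l)) (c (c l l) (d (c k k) (c l (d (c k k) (d (d (c l k) l) l))))))) (O (c (c l (c l l)) (c (c l l) (d (c k k) (c l (d (c k k) (d (d (c l k) l) l)))))))) (A (O (c (c l (c l l)) (c (c l l) (d (c k k) (c l (d (c k k) (d l l))))))) (O (c (c l (c l l)) (c (c l l) (d (c k k) (c l (d (c k k) (d (d l l) l))))))))) (B (A (O (c (c l (c l l)) (c (c l l) (d (c k k) (c l (d (c k k) (d (c l (d k (d (d l l) l))) l))))))) (O (c (c l (c l l)) (c (c l l) (d (c k k) (c l (d (c k k) (d (c l (c k k)) (d l l))))))))) (A (O (c (c l (c l l)) (c (c l l) (d (c k k) (c l (d (c k k) (d (d (c l k) l) l))))))) (O (c (c l (c l l)) (c (c l l) (d (c k k) (c l (d (c k k) (d (c l (d k (d (c k k) l))) l))))))))))) (B (A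 s s) (A (B (A (O (c (c l (c l l)) (c (c l l) (d (c k k) (c (d l l) (d (c k k) (c l (d (c k k) (d (d (c l k) l) l))))))))) s) (A (O (c (c l (c l l)) (c (c l l) (d (c k k) (c l (d (c k k) (d (c l (c k k)) (d (c l l) l)))))))) (O (c (c l (c l l)) (c (c l l) (c (d k l) (d k (d (c k k) (c l (d (c k k) (d (d (c l k) l) l))))))))))) (B s (A s s)))))))

theorem s00_r10110 : Sound P00 40960 4096 32768 8192 :=
  chkOut2_sound P00 KK tr00_r10110 40960 4096 32768 8192 (by decide +kernel)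

end Vale.Agent.P154.D5.K0
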